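import Vale.Agent.P259.Spec

/-!
# P259: cells with an interpolation are linked; representables are contractible
-/

namespace Vale.Agent.P259

open CategoryTheory Opposite

noncomputable section

/-- Maps of globular sums agree if they agree on the cells before gluing. -/
theorem Table.hom_ext' {S T : Table} {f g : S ⟶ T}
    (h : ∀ (n : Globeᵒᵖ) (c : S.Pre n.unop),
      f.hom.app n (Quot.mk _ c) = g.hom.app n (Quot.mk _ c)) : f = g := by
  refine InducedCategory.hom_ext (NatTrans.ext (funext fun n => ?_))
  refine ConcreteCategory.hom_ext _ _ fun x => ?_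
  induction x using Quot.ind with
  | _ c => exact h n c

/-- A side of a side is a side. -/
theorem side_comp_side (e e' : Bool) {j i k : ℕ} (h : j < i) (h' : i < k) :
    side e h ≫ side e' h' = side e (h.trans h') := by
  refine Table.hom_ext' fun n c => ?_
  exact congrArg (Quot.mk _) (Sigma.ext rfl (heq_of_eq (Category.assoc c.2 _ _)))

/-- The gluing in a globular sum. -/
theorem side_incl_glue (T : Table) (p : Fin T.len) :
    side true (T.lt_left p) ≫ incl T p.castSucc =
      side false (T.lt_right p) ≫ incl T p.succ :=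
  Table.hom_ext' fun _ c => Quot.sound (Table.Rel.glue p c.2)

/-- The globular identities in an extension. -/
theorem Ext.face_face (E : Ext) (e e' e'' : Bool) (n : ℕ) :
    E.face e n ≫ E.face e' (n + 1) = E.face e n ≫ E.face e'' (n + 1) := by
  simp only [Ext.face]
  rw [← E.i.map_comp, ← E.i.map_comp, side_comp_side, side_comp_side]

/-- Sides of parallel cells agree in the presence of a common cell. -/
theorem Ext.act_face_face (E : Ext) (X : E.Psh) (e e' e'' : Bool) {n : ℕ}
    (c : E.cells X (n + 1 + 1)) :
    E.act X (E.face e n) (E.act X (E.face e' (n + 1)) c) =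
      E.act X (E.face e n) (E.act X (E.face e'' (n + 1)) c) := by
  rw [← E.act_comp, ← E.act_comp, E.face_face e e' e'' n]

/-- Linked cells have the same sides. -/
theorem Ext.Linked.par {E : Ext} {X : E.Psh} {n : ℕ} {a b : E.cells X n}
    (h : E.Linked X a b) : E.Par X a b := by
  cases n with
  | zero => trivial
  | succ n =>
    obtain ⟨c, rfl, rfl⟩ := h
    exact fun e => E.act_face_face X e false true c

/-- The table of two discs of dimension `n + 1` glued along one of dimension `n`. -/
def pairTable (n : ℕ) : Table :=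
  ⟨1, fun _ => n + 1, fun _ => n, fun _ => n.lt_succ_self, fun _ => n.lt_succ_self⟩

theorem Ext.linked_refl {E : Ext} (hE : E.Contractible) (X : E.Psh) {n : ℕ}
    (a : E.cells X n) : E.Linked X a a := by
  have hp : E.Parallel (𝟙 (E.i.obj (disc n))) (𝟙 (E.i.obj (disc n))) := by
    cases n with
    | zero => trivial
    | succ n => exact fun _ => rfl
  obtain ⟨u, hs, ht⟩ := hE _ _ hp
  exact ⟨E.act X u a, by rw [← E.act_comp, hs, E.act_id], by rw [← E.act_comp, ht, E.act_id]⟩

theorem Ext.linked_symm {E : Ext} (hE : E.Contractible) (X : E.Psh) {n : ℕ}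
    {a b : E.cells X n} (h : E.Linked X a b) : E.Linked X b a := by
  have hp : E.Parallel (E.face true n) (E.face false n) := by
    cases n with
    | zero => trivial
    | succ n => exact fun e => E.face_face e true false n
  obtain ⟨r, hs, ht⟩ := hE _ _ hp
  obtain ⟨c, rfl, rfl⟩ := h
  exact ⟨E.act X r c, by rw [← E.act_comp, hs], by rw [← E.act_comp, ht]⟩

/-- The inclusions of the two discs into their gluing, in an extension. -/
abbrev Ext.pairIncl (E : Ext) (n : ℕ) (p : Fin (1 + 1)) : E.M (disc (n + 1)) (pairTable n) :=
  E.i.map (incl (pairTable n) p)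

theorem Ext.pairIncl_glue (E : Ext) (n : ℕ) :
    E.face true n ≫ E.pairIncl n 0 = E.face false n ≫ E.pairIncl n 1 :=
  (E.i.map_comp _ _).symm.trans ((congrArg E.i.map
    (side_incl_glue (pairTable n) (0 : Fin 1))).trans (E.i.map_comp _ _))

theorem Ext.linked_trans {E : Ext} (hE : E.Contractible) (X : E.Gpd) {n : ℕ}
    {a b c : E.cells X.obj n} (h₁ : E.Linked X.obj a b) (h₂ : E.Linked X.obj b c) :
    E.Linked X.obj a c := by
  have hp : E.Parallel (E.face false n ≫ E.pairIncl n 0) (E.face true n ≫ E.pairIncl n 1) := by
    cases n with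
    | zero => trivial
    | succ n =>
      intro e
      calc E.face e n ≫ E.face false (n + 1) ≫ E.pairIncl (n + 1) 0
          = E.face e n ≫ E.face true (n + 1) ≫ E.pairIncl (n + 1) 0 := by
            rw [← Category.assoc, E.face_face e false true n, Category.assoc]
        _ = E.face e n ≫ E.face false (n + 1) ≫ E.pairIncl (n + 1) 1 := by
            rw [E.pairIncl_glue]
        _ = E.face e n ≫ E.face true (n + 1) ≫ E.pairIncl (n + 1) 1 := by
            rw [← Category.assoc, E.face_face e false true n, Category.assoc]
  obtain ⟨m, hs, ht⟩ := hE _ _ hp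
  obtain ⟨p, rfl, hp'⟩ := h₁
  obtain ⟨q, hq, rfl⟩ := h₂
  have hglue : ∀ i : Fin 1,
      E.act X.obj (E.i.map (side true ((pairTable n).lt_left i))) (![p, q] i.castSucc) =
        E.act X.obj (E.i.map (side false ((pairTable n).lt_right i))) (![p, q] i.succ) := by
    intro i
    obtain rfl : i = 0 := Subsingleton.elim _ _
    exact hp'.trans hq.symm
  obtain ⟨x, hx, -⟩ := X.property (pairTable n) ![p, q] hglue
  refine ⟨E.act X.obj m x, ?_, ?_⟩
  · rw [← E.act_comp, hs, E.act_comp]
    exact congrArg _ (hx 0)
  · rw [← E.act_comp, ht, E.act_comp]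
    exact congrArg _ (hx 1)

/-- Linked is an equivalence relation. -/
theorem linkedEquiv : Spec.LinkedEquiv := fun _ hE X _ =>
  ⟨fun a => Ext.linked_refl hE X.obj a, fun _ _ h => Ext.linked_symm hE X.obj h,
    fun _ _ _ h₁ h₂ => Ext.linked_trans hE X h₁ h₂⟩

/-- Every globular sum has a point. -/
theorem exists_point (T : Table) : Nonempty (disc 0 ⟶ T) := by
  by_cases h : 0 < T.top 0
  · exact ⟨side false h ≫ incl T 0⟩
  · have h0 : T.top 0 = 0 := Nat.eq_zero_of_not_pos h
    exact ⟨eqToHom (congrArg disc h0.symm) ≫ incl T 0⟩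

/-- Representables are contractible. -/
theorem yonCtr : Spec.YonCtr := fun E hE T =>
  ⟨(exists_point T).map fun f => E.i.map f, fun {n} a b hab => by
    have hp : E.Parallel (T := T) (n := n) a b := by
      cases n with
      | zero => trivial
      | succ n => exact hab
    exact hE a b hp⟩

end

end Vale.Agent.P259
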